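import Crest.Agent.X212.Gap6.Abs
import Crest.Agent.X212.Ms1.Sf

/-!
# Row 212 (helper6): the spectrum of a symmetric operator of Dirac type on a closed manifold
-/

set_option autoImplicit false
set_option linter.unusedSectionVars false
noncomputable section
open scoped Manifold ContDiff Topology InnerProductSpace
open MeasureTheory Set Function Filter

namespace Crest.Agent.X212.Gap6
open An An.Pre Sob92 Ell97 Cyf70

variable {E : Type} [NormedAddCommGroup E] [NormedSpace ℝ E] [FiniteDimensional ℝ E]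
  [MeasurableSpace E] [BorelSpace E]
  {HM : Type} [TopologicalSpace HM] {I : ModelWithCorners ℝ E HM} [I.Boundaryless]
  {Y : Type} [TopologicalSpace Y] [ChartedSpace HM Y] [IsManifold I ∞ Y] [T2Space Y]
  [MeasurableSpace Y] [BorelSpace Y] [SecondCountableTopology Y] [CompactSpace Y]
  {ι : Type} [Fintype ι]
  {V W : Type} [NormedAddCommGroup V] [InnerProductSpace ℝ V] [NormedAddCommGroup W]
  [InnerProductSpace ℝ W] [FiniteDimensional ℝ V] [FiniteDimensional ℝ W]
  {F : Fr I Y ι} {A : Op Y (Option ι) V W}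

theorem exists_P (F : Fr I Y ι) (hd : 0 < Module.finrank ℝ E) (x : Y) : ∃ a, F.P a a x ≠ 0 := by
  by_contra! h
  have h1 : ∀ a, F.e a x = 0 := fun a => by
    obtain ⟨ξ, hξ⟩ := Wrd81.exists_covector F x a
    have h2 := congrArg ξ (F.P_e a x)
    simp only [map_sum, map_smul, hξ, smul_eq_mul, h] at h2
    have h3 := (Finset.sum_eq_zero_iff_of_nonneg fun b _ => mul_self_nonneg _).1 h2
    rw [← F.P_e]
    exact Finset.sum_eq_zero fun b hb => by rw [mul_self_eq_zero.1 (h3 b hb), zero_smul]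
  have h2 : (⊤ : Submodule ℝ E) = ⊥ := (F.span x).symm.trans
    (Submodule.span_eq_bot.2 (by rintro _ ⟨a, rfl⟩; exact h1 a))
  have := Module.finrank_pos_iff.1 hd
  exact top_ne_bot h2

variable (F) in
/-- the spectrum on smooth sections -/
def SpS (A : Op Y ι V V) : Set ℝ := {l | ∃ u : Sec I A.p, u ≠ 0 ∧ A.app F u.1 = l • u.1}

variable (h : CyO F A)
include h

theorem cr : Cr (F.incl 1 0 A.p) (LH F A 0) :=
  ⟨incl_inj F zero_le_one _, Cht98.rellich zero_lt_one, h.symH, h.frL 0⟩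

/-- eigenvectors are smooth -/
theorem eig_sec {l : ℝ} {x : F.H 1 A.p} (hx : LH F A 0 x = l • F.incl 1 0 A.p x) :
    ∃ u : Sec I A.p, F.toH 1 A.p u = x ∧ (sop A).app F u.1 = l • u.1 := by
  obtain ⟨C, g⟩ := h.good_sop
  obtain ⟨C', t⟩ := h.tameY
  obtain ⟨u, rfl⟩ := sec_of_all t (x := x) fun j hj => by
    induction j, hj using Nat.le_induction with
    | base => exact ⟨x, incl_self x⟩
    | succ j hj ih =>
      obtain ⟨y, hy⟩ := ih
      obtain ⟨z, hz, -⟩ := reg_up t g h.cliffL j.zero_le (x := x) (w := l • y)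
        (by rw [map_smul, ← incl_incl hj zero_le_one, hy]; exact hx)
      exact ⟨z, hz⟩
  rw [LH, H_toH g, incl_toH zero_le_one, ← map_smul] at hx
  exact ⟨u, rfl, congrArg Subtype.val (toH_inj F 0 _ hx)⟩

theorem sp_eq : Sp (F.incl 1 0 A.p) (LH F A 0) = SpS F (sop A) := by
  obtain ⟨C, g⟩ := h.good_sop
  refine ext fun l => ⟨fun ⟨x, h0, hx⟩ => ?_, fun ⟨u, h0, hu⟩ => ⟨F.toH 1 A.p u, fun e => h0
    (toH_inj F 1 _ (e.trans (map_zero _).symm)), ?_⟩⟩
  · obtain ⟨u, rfl, hu⟩ := eig_sec h hx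
    exact ⟨u, fun e => h0 (by rw [e, map_zero]), hu⟩
  · rw [LH, H_toH g, incl_toH zero_le_one, ← map_smul]
    exact congrArg _ (Subtype.ext hu)

theorem fin {K : Set ℝ} (hK : IsCompact K) : (SpS F (sop A) ∩ K).Finite :=
  sp_eq h ▸ (cr h).fin hK

theorem gap {β δ : ℝ} (hδ : 0 ≤ δ) (H : ∀ l ∈ SpS F (sop A), δ ≤ |β - l|) (u : Sec I A.p) :
    δ ^ 2 * ∫ y, ‖u.1 y‖ ^ 2 ∂F.μ ≤ ∫ y, ‖(sop A).app F u.1 y - β • u.1 y‖ ^ 2 ∂F.μ := by
  obtain ⟨C, g⟩ := h.good_sop
  have := (cr h).gap hδ (sp_eq h ▸ H) (F.toH 1 A.p u)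
  rw [LH, H_toH g, incl_toH zero_le_one, ← map_smul, ← map_sub, ← real_inner_self_eq_norm_sq,
    ← real_inner_self_eq_norm_sq, inner_toH, inner_toH] at this
  simp only [ip, real_inner_self_eq_norm_sq] at this
  exact this

/-- the spectrum is unbounded above -/
theorem unb (hd : 0 < Module.finrank ℝ E) {x : Y} (hx : A.p x ≠ 0) (β : ℝ) :
    ∃ l ∈ SpS F (sop A), β ≤ l := by
  by_contra! H
  obtain ⟨C, g⟩ := h.good_sop
  have bd : ∀ u : Sec I A.p, ∫ y, ⟪(sop A).app F u.1 y, u.1 y⟫_ℝ ∂F.μ ≤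
      β * ∫ y, ⟪u.1 y, u.1 y⟫_ℝ ∂F.μ := fun u => by
    have := (cr h).bdd (sp_eq h ▸ H) (F.toH 1 A.p u)
    rwa [LH, H_toH g, incl_toH zero_le_one, ← real_inner_self_eq_norm_sq, inner_toH,
      inner_toH] at this
  obtain ⟨a, ha⟩ := exists_P F hd x
  obtain ⟨v, hv⟩ : ∃ v, A.p x v ≠ 0 := by_contra fun h => hx (by ext1 v; simpa using not_exists.1 h v)
  obtain ⟨ξ, hξ⟩ := Wrd81.exists_covector F x a
  obtain ⟨f, hf, -, -, hfd⟩ := Wrd81.exists_fun_deriv (I := I) (univ_mem : univ ∈ 𝓝 x) ξ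
  set S := sy F (sop A) f with hS
  have sS : Sm I S := (cb_sy g (Cb_of_compact hf)).choose_spec.1
  have sk : ∀ y v w, ⟪S y v, w⟫_ℝ = -⟪v, S y w⟫_ℝ := fun y v w => by
    simp only [hS, sy, _root_.sum_apply, smul_apply, sum_inner, inner_sum, real_inner_smul_left,
      real_inner_smul_right, ContinuousLinearMap.comp_apply, h.skew, mul_neg,
      Finset.sum_neg_distrib]
  have s0 : ∀ y v, ⟪S y v, v⟫_ℝ = 0 := fun y v => by
    have := sk y v v
    rw [real_inner_comm (S y v)] at this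
    linarith
  have cs := fun u : Y → V => HasCompactSupport.of_compactSpace u
  let s : Sec I A.p := ⟨fun y => A.p y v, g.p.cb.1.clm_apply contMDiff_const, cs _,
    fun y => g.p.idem y v⟩
  let t : Sec I A.p := ⟨fun y => S y (s.1 y), sS.clm_apply s.2.1, cs _, fun y => by
    simp only [hS, sy, _root_.sum_apply, smul_apply, map_sum, map_smul]
    exact Finset.sum_congr rfl fun b _ => congrArg _ (g.qσ b y _)⟩
  have cL : ∀ u : Sec I A.p, Continuous ((sop A).app F u.1) := fun u => (LS g u).2.1.continuous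
  have c1 := s.2.1.continuous
  have c2 := t.2.1.continuous
  have c3 := cL s
  have c4 := cL t
  have int : ∀ {k : Y → ℝ}, Continuous k → Integrable k F.μ := fun hk =>
    hk.integrable_of_hasCompactSupport (HasCompactSupport.of_compactSpace _)
  have hpos : 0 < ∫ y, ‖t.1 y‖ ^ 2 ∂F.μ := by
    have := openPos F.toPre
    refine (c2.norm.pow 2).integral_pos_of_hasCompactSupport_nonneg_nonzero
      (HasCompactSupport.of_compactSpace _) (fun y => sq_nonneg _) (x := x) ?_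
    have e : S x = (sop A).σ a x := by
      refine Eq.trans (Finset.sum_congr rfl fun b _ => ?_) (g.Pσ a x)
      rw [Pre.D, hfd, hξ]
    intro h0
    have h1 : S x (A.p x v) = 0 := norm_eq_zero.1 (pow_eq_zero_iff two_ne_zero |>.1 h0)
    have h2 := h.cliffL a a x (A.p x v) (A.p x v)
    rw [← e, h1, inner_zero_left, add_zero, show (sop A).p x (A.p x v) = A.p x v from g.p.idem x v,
      mul_assoc] at h2
    exact mul_ne_zero two_ne_zero (mul_ne_zero ha (real_inner_self_pos.2 hv).ne') h2.symm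
  set m : Y → ℝ := fun y => ‖s.1 y‖ + ‖t.1 y‖ with hm
  set k : Y → ℝ := fun y => (‖(sop A).app F s.1 y‖ + ‖(sop A).app F t.1 y‖ + |β| * m y) * m y
  obtain ⟨N, hN⟩ : ∃ N : ℝ, ∫ y, k y ∂F.μ < N * ∫ y, ‖t.1 y‖ ^ 2 ∂F.μ :=
    ⟨(∫ y, k y ∂F.μ) / (∫ y, ‖t.1 y‖ ^ 2 ∂F.μ) + 1, by rw [add_mul, div_mul_cancel₀ _ hpos.ne']; linarith⟩
  have ch : ∀ {c c' : ℝ → ℝ}, (∀ r, HasDerivAt c (c' r) r) → ∀ y,
      sy F (sop A) (fun y => c (f y)) y = c' (f y) • S y := fun {c c'} hc y => by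
    simp only [hS, sy, Finset.smul_sum, smul_smul]
    refine Finset.sum_congr rfl fun b _ => congrArg (· • _) ?_
    exact (dv_comp (md hf y) (hc _).hasFDerivAt).trans (mul_comm _ _)
  have d1 : ∀ r, HasDerivAt (fun r => Real.cos (N * r)) (-Real.sin (N * r) * N) r := fun r => by
    simpa using ((hasDerivAt_id r).const_mul N).cos
  have d2 : ∀ r, HasDerivAt (fun r => -Real.sin (N * r)) (-(Real.cos (N * r) * N)) r := fun r => by
    simpa using ((hasDerivAt_id r).const_mul N).sin.fun_neg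
  have s1 : Sm I fun y => Real.cos (N * f y) :=
    (by fun_prop : ContDiff ℝ ∞ fun r => Real.cos (N * r)).contMDiff.comp hf
  have s2 : Sm I fun y => -Real.sin (N * f y) :=
    (by fun_prop : ContDiff ℝ ∞ fun r => -Real.sin (N * r)).contMDiff.comp hf
  let u : Sec I A.p := ⟨(fun y => Real.cos (N * f y) • s.1 y) + fun y => -Real.sin (N * f y) • t.1 y,
    (s1.smul s.2.1).add (s2.smul t.2.1), cs _, fun y => by
      simp only [Pi.add_apply, map_add, map_smul, s.2.2.2, t.2.2.2]⟩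
  have c5 := u.2.1.continuous
  have c6 := cL u
  have key : ∀ y, N * ‖t.1 y‖ ^ 2 ≤
      ⟪(sop A).app F u.1 y, u.1 y⟫_ℝ - β * ⟪u.1 y, u.1 y⟫_ℝ + k y := fun y => by
    have e1 : (sop A).app F u.1 y = _ := (app_add (s1.smul s.2.1) (s2.smul t.2.1) y).trans
      (congrArg₂ _ (app_smul s1 s.2.1 y) (app_smul s2 t.2.1 y))
    rw [ch d1, ch d2] at e1
    have e2 : u.1 y = Real.cos (N * f y) • s.1 y + -Real.sin (N * f y) • t.1 y := rfl
    have e3 : S y (s.1 y) = t.1 y := rfl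
    have e4 := Real.sin_sq_add_cos_sq (N * f y)
    have b1 := Real.abs_cos_le_one (N * f y)
    have b2 := Real.abs_sin_le_one (N * f y)
    generalize Real.cos (N * f y) = p at *
    generalize Real.sin (N * f y) = q at *
    have nb : ∀ a b : V, ‖p • a + -q • b‖ ≤ ‖a‖ + ‖b‖ := fun a b => (norm_add_le _ _).trans
      (add_le_add (by rw [norm_smul]; exact mul_le_of_le_one_left (norm_nonneg _) b1)
        (by rw [norm_smul, norm_neg]; exact mul_le_of_le_one_left (norm_nonneg _) b2))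
    have n1 : ‖u.1 y‖ ≤ m y := e2 ▸ nb _ _
    have n2 := (abs_real_inner_le_norm _ (u.1 y)).trans (mul_le_mul
      (nb ((sop A).app F s.1 y) ((sop A).app F t.1 y)) n1 (norm_nonneg _) (by positivity))
    have n3 : β * ⟪u.1 y, u.1 y⟫_ℝ ≤ |β| * (m y * m y) := mul_le_mul (le_abs_self _)
      ((real_inner_le_norm _ _).trans (mul_self_le_mul_self (norm_nonneg _) n1))
      real_inner_self_nonneg (abs_nonneg _)
    have n4 : ⟪(-q * N) • t.1 y + -(p * N) • S y (t.1 y), u.1 y⟫_ℝ = N * ‖t.1 y‖ ^ 2 := by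
      have a1 : ⟪t.1 y, s.1 y⟫_ℝ = 0 := s0 y _
      have a2 : ⟪S y (t.1 y), s.1 y⟫_ℝ = -‖t.1 y‖ ^ 2 := by
        rw [sk, e3, real_inner_self_eq_norm_sq]
      simp only [e2, inner_add_left, inner_add_right, real_inner_smul_left, real_inner_smul_right,
        a1, a2, s0, real_inner_self_eq_norm_sq]
      linear_combination N * ‖t.1 y‖ ^ 2 * e4
    have n5 : (sop A).app F u.1 y = (p • (sop A).app F s.1 y + -q • (sop A).app F t.1 y) +
        ((-q * N) • t.1 y + -(p * N) • S y (t.1 y)) := by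
      rw [e1, smul_apply, smul_apply, e3]; abel
    rw [n5, inner_add_left, n4]
    simp only [k]
    nlinarith [neg_abs_le ⟪p • (sop A).app F s.1 y + -q • (sop A).app F t.1 y, u.1 y⟫_ℝ]
  have i1 := int (c6.inner (𝕜 := ℝ) c5)
  have i2 := (int (c5.inner (𝕜 := ℝ) c5)).const_mul β
  have := integral_mono ((int (c2.norm.pow 2)).const_mul N)
    ((i1.sub i2).add (int (k := k) (by fun_prop))) key
  erw [integral_add (i1.sub i2) (int (k := k) (by fun_prop)), integral_sub i1 i2] at this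
  simp only [integral_const_mul] at this
  have h3 := bd u
  exact absurd (hN.trans_le this) (by simp only [not_lt]; exact add_le_of_nonpos_left (sub_nonpos.2 h3))

theorem inf (hd : 0 < Module.finrank ℝ E) {x : Y} (hx : A.p x ≠ 0) (β : ℝ) :
    (SpS F (sop A) ∩ Ioi β).Infinite := fun hf => by
  obtain ⟨b, hb⟩ := hf.bddAbove
  obtain ⟨l, hl, h1⟩ := unb h hd hx (max b β + 1)
  linarith [hb ⟨hl, show β < l by linarith [le_max_right b β]⟩, le_max_left b β]

end Crest.Agent.X212.Gap6
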