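import Crest.Agent.X212.Fred93.Cpt

/-!
# Row 212 (helper6): the spectrum of a symmetric operator with compact resolvent
-/

set_option autoImplicit false
set_option linter.unusedSectionVars false
noncomputable section
open scoped Topology InnerProductSpace
open Set Function Filter

namespace Crest.Agent.X212.Gap6
open Fred93 (Fr Est)

variable {X₁ X₀ : Type*} [NormedAddCommGroup X₁] [NormedSpace ℝ X₁] [CompleteSpace X₁]
  [NormedAddCommGroup X₀] [InnerProductSpace ℝ X₀] [CompleteSpace X₀]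

/-- functions of a compact symmetric operator that are nonnegative on the spectrum -/
theorem pos {G A : X₀ →L[ℝ] X₀} (hc : IsCompactOperator G)
    (hs : ∀ x y, ⟪G x, y⟫_ℝ = ⟪x, G y⟫_ℝ) (h : ∀ (μ : ℝ) x, G x = μ • x → ∃ c ≥ (0 : ℝ), A x = c • x)
    (x : X₀) : 0 ≤ ⟪A x, x⟫_ℝ := by
  have hs' : G.IsSymmetric := hs
  have h1 := ContinuousLinearMap.orthogonalComplement_iSup_eigenspaces_eq_bot hc hs'
  have h2 := Submodule.dense_iff_topologicalClosure_eq_top.2
    (Submodule.topologicalClosure_eq_top_iff.2 h1)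
  refine h2.induction (fun x hx => ?_) (isClosed_le (by fun_prop) (by fun_prop)) x
  obtain ⟨f, hf, rfl⟩ := (Submodule.mem_iSup_iff_exists_finsupp _ _).1 hx
  have e : ∀ μ, G (f μ) = μ • f μ := fun μ => Module.End.mem_eigenspace_iff.1 (hf μ)
  rw [Finsupp.sum, map_sum, sum_inner]
  refine Finset.sum_nonneg fun μ _ => ?_
  obtain ⟨c, h0, h3⟩ := h μ _ (e μ)
  rw [h3, real_inner_smul_left, inner_sum]
  refine mul_nonneg h0 (Finset.sum_nonneg fun l _ => ?_)
  rcases eq_or_ne μ l with rfl | hl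
  · exact real_inner_self_nonneg
  · have := hs (f μ) (f l)
    rw [e, e, real_inner_smul_left, real_inner_smul_right] at this
    exact ((mul_eq_mul_right_iff.1 this).resolve_left hl).ge

/-- the spectrum -/
def Sp (i L : X₁ →L[ℝ] X₀) : Set ℝ := {l | ∃ u, u ≠ 0 ∧ L u = l • i u}

/-- a symmetric operator with compact resolvent -/
structure Cr (i L : X₁ →L[ℝ] X₀) : Prop where
  inj : Injective i
  cpt : IsCompactOperator i
  sym : ∀ u v, ⟪L u, i v⟫_ℝ = ⟪i u, L v⟫_ℝ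
  fr : Fr L 0

namespace Cr
variable {i L : X₁ →L[ℝ] X₀} (h : Cr i L)
include h

theorem fin {K : Set ℝ} (hK : IsCompact K) : (Sp i L ∩ K).Finite := by
  by_contra hinf
  have : Infinite (Sp i L ∩ K : Set ℝ) := infinite_coe_iff.2 hinf
  let f := Infinite.natEmbedding (Sp i L ∩ K : Set ℝ)
  have h1 : ∀ n, ∃ u, ‖i u‖ = 1 ∧ L u = (f n).1 • i u := fun n => by
    obtain ⟨u, h0, hu⟩ := (f n).2.1
    refine ⟨‖i u‖⁻¹ • u, ?_, by rw [map_smul, map_smul, hu, smul_comm]⟩
    rw [map_smul]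
    exact norm_smul_inv_norm fun e => h0 (h.inj (e.trans (map_zero i).symm))
  choose u hn hu using h1
  obtain ⟨π, C, hC, -, hE⟩ := Fred93.exists_est h.fr.1
  have := h.fr.1.finite_ker
  have hE' : Est (L.prod i) π C := fun x => (hE x).trans
    (mul_le_mul_of_nonneg_left (add_le_add_left (norm_fst_le (L.prod i x)) _) hC.le)
  obtain ⟨c, hc, hb⟩ := hE'.bound_of_inj (isCompactOperator_of_locallyCompactSpace_dom π)
    fun x y e => h.inj (congrArg Prod.snd e)
  obtain ⟨R, hR⟩ := hK.isBounded.exists_norm_le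
  obtain ⟨S, hS, hs⟩ := h.cpt.image_closedBall_subset_compact (f := (i : X₁ →ₗ[ℝ] X₀))
    (c * max R 1)
  obtain ⟨a, -, φ, hφ, ha⟩ := hS.tendsto_subseq (x := fun n => i (u n)) fun n =>
    hs ⟨u n, mem_closedBall_zero_iff.2 ((hb _).trans (mul_le_mul_of_nonneg_left (max_le_max
      (by
        change ‖L (u n)‖ ≤ R
        rw [hu, norm_smul, hn, mul_one]; exact hR _ (f n).2.2) (hn n).le) hc.le)), rfl⟩
  have h2 := ha.inner (𝕜 := ℝ) (ha.comp (tendsto_add_atTop_nat 1))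
  have h3 : ⟪a, a⟫_ℝ = 0 := tendsto_nhds_unique h2 (tendsto_const_nhds.congr fun n => by
    have := h.sym (u (φ n)) (u (φ (n + 1)))
    rw [hu, hu, real_inner_smul_left, real_inner_smul_right] at this
    exact ((mul_eq_mul_right_iff.1 this).resolve_left fun e =>
      (hφ n.lt_succ_self).ne (f.injective (Subtype.ext e))).symm)
  have h4 : ‖a‖ = 1 := tendsto_nhds_unique ha.norm (tendsto_const_nhds.congr fun n => (hn _).symm)
  rw [real_inner_self_eq_norm_sq, h4] at h3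
  norm_num at h3

/-- the resolvent -/
theorem res {β : ℝ} (hβ : β ∉ Sp i L) : ∃ G : X₀ →L[ℝ] X₀, IsCompactOperator G ∧
    (∀ x y, ⟪G x, y⟫_ℝ = ⟪x, G y⟫_ℝ) ∧ (∀ u, G (L u - β • i u) = i u) ∧
    ∀ (μ : ℝ) x, G x = μ • x → x = 0 ∨ μ = 0 ∨ ∃ l ∈ Sp i L, μ * (l - β) = 1 := by
  have hf : Fr (L + -(β • i)) 0 := h.fr.add_compact (h.cpt.smul β).neg
  have e : ∀ u, (L + -(β • i)) u = L u - β • i u := fun u => (sub_eq_add_neg _ _).symm
  have hi : Injective (L + -(β • i) : X₁ →L[ℝ] X₀) := (injective_iff_map_eq_zero _).2 fun u hu =>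
    by_contra fun h0 => hβ ⟨u, h0, sub_eq_zero.1 ((e u).symm.trans hu)⟩
  let B := ContinuousLinearEquiv.ofBijective (L + -(β • i)) (LinearMap.ker_eq_bot.2 hi)
    (LinearMap.range_eq_top.2 (hf.surj_of_inj hi))
  have e1 : ∀ u, i (B.symm (L u - β • i u)) = i u := fun u =>
    congrArg i ((congrArg B.symm (e u).symm).trans (B.symm_apply_apply u))
  have e2 : ∀ x, ∃ u, x = L u - β • i u := fun x =>
    ⟨B.symm x, (B.apply_symm_apply x).symm.trans (e _)⟩
  refine ⟨i ∘L (B.symm : X₀ →L[ℝ] X₁), h.cpt.comp_clm _, fun x y => ?_, e1, fun μ x hx => ?_⟩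
  · obtain ⟨u, rfl⟩ := e2 x
    obtain ⟨v, rfl⟩ := e2 y
    change ⟪i (B.symm _), _⟫_ℝ = ⟪_, i (B.symm _)⟫_ℝ
    rw [e1, e1, inner_sub_left, inner_sub_right, h.sym, real_inner_smul_left, real_inner_smul_right]
  · obtain ⟨u, rfl⟩ := e2 x
    refine or_iff_not_imp_left.2 fun h0 => or_iff_not_imp_left.2 fun hμ =>
      ⟨μ⁻¹ + β, ⟨u, ?_, ?_⟩, by rw [add_sub_cancel_right, mul_inv_cancel₀ hμ]⟩
    · rintro rfl; simp at h0
    · rw [add_smul, ← sub_eq_iff_eq_add, eq_inv_smul_iff₀ hμ, ← hx]; exact e1 u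

/-- the distance to the spectrum -/
theorem gap {β δ : ℝ} (hδ : 0 ≤ δ) (H : ∀ l ∈ Sp i L, δ ≤ |β - l|) (u : X₁) :
    δ ^ 2 * ‖i u‖ ^ 2 ≤ ‖L u - β • i u‖ ^ 2 := by
  rcases hδ.eq_or_lt with rfl | hδ'
  · simp
  obtain ⟨G, h1, h2, h3, h4⟩ := h.res (β := β) fun hβ => by
    have := H β hβ
    rw [sub_self, abs_zero] at this
    linarith
  have := pos (A := 1 - δ ^ 2 • (G * G)) h1 h2 (fun μ x hx => ?_) (L u - β • i u)
  · change 0 ≤ ⟪(L u - β • i u) - δ ^ 2 • G (G _), _⟫_ℝ at this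
    rwa [inner_sub_left, real_inner_smul_left, h2, h3, real_inner_self_eq_norm_sq,
      real_inner_self_eq_norm_sq, sub_nonneg] at this
  · rcases h4 μ x hx with rfl | h5
    · exact ⟨0, le_rfl, by simp⟩
    refine ⟨1 - δ ^ 2 * μ ^ 2, ?_, ?_⟩
    · rcases h5 with rfl | ⟨l, hl, h5⟩
      · simp
      · have h6 := pow_le_pow_left₀ hδ (H l hl) 2
        rw [sq_abs] at h6
        have h7 : μ ^ 2 * (β - l) ^ 2 = 1 := by rw [← one_pow 2, ← h5]; ring
        nlinarith [sq_nonneg μ]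
    · change x - δ ^ 2 • G (G x) = _
      rw [hx, map_smul, hx]; module

/-- a spectrum that is bounded above bounds the quadratic form -/
theorem bdd {β : ℝ} (H : ∀ l ∈ Sp i L, l < β) (u : X₁) : ⟪L u, i u⟫_ℝ ≤ β * ‖i u‖ ^ 2 := by
  obtain ⟨G, h1, h2, h3, h4⟩ := h.res (β := β) fun hβ => (H β hβ).false
  have := pos (A := -G) h1 h2 (fun μ x hx => ?_) (L u - β • i u)
  · change 0 ≤ ⟪-G _, _⟫_ℝ at this
    rw [h3, inner_neg_left, inner_sub_right, real_inner_smul_right, real_inner_self_eq_norm_sq,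
      real_inner_comm] at this
    linarith
  · rcases h4 μ x hx with rfl | h5
    · exact ⟨0, le_rfl, by simp⟩
    refine ⟨-μ, ?_, by change -G x = _; rw [hx, neg_smul]⟩
    rcases h5 with rfl | ⟨l, hl, h5⟩
    · simp
    · by_contra h6
      nlinarith [H l hl, not_le.1 h6]

end Cr

end Crest.Agent.X212.Gap6
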