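import Crest.Agent.X212.Gap6.Sec
import Crest.Agent.X212.End23.Crt
import Crest.Agent.X212.Dl42.Main
import Crest.Agent.X212.Op40.Main

/-!
# Row 212, ES-GAP (helper6): the spectrum of the Dirac operator of a cross-section
-/

set_option autoImplicit false
set_option linter.unusedSectionVars false
noncomputable section
open scoped Manifold ContDiff Topology InnerProductSpace
open MeasureTheory Set Function Filter

namespace Crest.Agent.X212.Gap6
open An An.Pre Sob92 Cyf70 Sw Sw.En3 End23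
open Dl42 (τ hZ GP D0 Ay)
open Wz78 (SA)

variable {κ lam ν : Type} [Fintype κ] [Fintype lam] [Fintype ν] [DecidableEq ν]
  (e : En3 κ lam ν)

/-- positive spinors -/
abbrev q (y : e.Y.M) : En ν := e.cyl.pp (y, 0)

/-- the part of order zero -/
def Bz (a : κ → e.Y.M → ℝ) (y : e.Y.M) : En ν :=
  -(∑ k, τ e k y * (e.A k y + a k y • e.m.J) + hZ e y)

/-- the Dirac operator of the cross-section -/
abbrev dO (a : κ → e.Y.M → ℝ) : Op e.Y.M κ (Eu ν) (Eu ν) :=
  Map77.cut e.D.F.toPre (q e) (q e) (fun k y => -τ e k y) (Bz e a)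

/-- the operator on the cylinder -/
abbrev cO (a : κ → e.Y.M → ℝ) : Op e.Y.M (Option κ) (Eu ν) (Eu ν) :=
  Ms1.cop (q e) (dO e a).B (dO e a).σ

variable {e} (he : e.OK) {v θ : e.YC}

theorem ay_sec (h : Ay θ) (u : Sec e.Y.I (q e)) : Ay (⟨θ.a, u.1⟩ : e.YC) :=
  ⟨h.sa, u.2.1, h.pa, u.2.2.2⟩

/-- the spinor as a section -/
def sec (h : Ay v) : Sec e.Y.I (q e) := ⟨v.Φ, h.sΦ, .of_compactSpace _, h.pΦ⟩

include he

theorem sm_q : Sm e.Y.I (q e) := sm_slice_fst (u := e.cyl.pp) (Op40.sa_pp he.cyl) 0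

theorem prj_q : Map77.Prj (q e) :=
  ⟨fun y => (Op40.prjp he.cyl).idem (y, 0), fun y => (Op40.prjp he.cyl).symm (y, 0)⟩

theorem dr_eq (h : Ay v) (y : e.Y.M) : dr v y = GP v y := by
  have h1 := Dl42.eD_split he h.adm y 0
  rwa [show (Dl42.dt (fz v)).Φ = 0 from D_none_fst _ h.sΦ, show (fz v).a none (y, 0) = 0 from rfl,
    zero_smul, add_zero, Pi.zero_apply, zero_add] at h1

theorem q_dr (h : Ay v) (y : e.Y.M) : q e y (dr v y) = dr v y := by
  rw [dr, map_neg]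
  refine congrArg _ ((Op40.pc he.cyl (y, 0)).pp_ρ ?_ none)
  exact (map_add _ _ _).trans (congrArg₂ _ (Op40.pm_dir he.cyl (h.adm.sΦ _)
    (.of_forall h.adm.pΦ)) (Op40.pm_ms he.cyl _))

theorem app_eq (h : Ay v) : (dO e v.a).app e.D.F v.Φ = dr v := funext fun y => by
  rw [Op.app, Map77.op_cut _ (sm_q he) h.sΦ h.pΦ, ← q_dr he h, dr_eq he h]
  refine congrArg (q e y) ?_
  simp only [Pre.op, Bz, GP, D0, Wz78.dop, Wz78.nab, neg_apply, add_apply, _root_.sum_apply,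
    mul_apply_eq_comp, smul_apply, map_add, map_smul, Dl42.Jτ he, Finset.sum_add_distrib,
    Finset.sum_neg_distrib, Pre.D_def]
  abel

theorem good (h : Ay θ) : ∃ C, (dO e θ.a).Good e.D.F C := by
  have sq := sm_q he
  have sτ : ∀ k, Sm e.Y.I fun y => -τ e k y := fun k => ContMDiff.neg ((Dl42.sy he).sm k)
  have al : Map77.Alg e.D.F.P (dO e θ.a) := .cut _ (prj_q he) (prj_q he) fun k y => by
    simp only [smul_neg, Finset.sum_neg_distrib, (Dl42.sy he).proj]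
  refine good_of_cb (Cb_of_compact sq) (Cb_of_compact sq)
    (fun k => Cb_of_compact (sq.clm_comp ((sτ k).clm_comp sq)))
    (Cb_of_compact (sq.clm_comp fun y => ContMDiffAt.add (ContMDiffAt.neg (ContMDiffAt.add (SA.sum _ fun k _ =>
      SA.mul ((Dl42.sy he).sm k y) (ContMDiffAt.add ((Dl42.conA he).sm k y)
        (SA.smul (h.sa k y) contMDiffAt_const))) (Dl42.sm_Z he y)))
      (SA.sum _ fun k _ => (sτ k).clm_comp (e.D.F.sm_D sq k) y)))
    al.p.idem al.p.symm al.q.idem al.q.symm al.σp al.qσ al.qB al.Pσ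

theorem cliff (a : κ → e.Y.M → ℝ) : (dO e a).CliffL e.D.F := fun i j y v w => by
  have P := Op40.pc he.cyl (y, 0)
  have e1 : ∀ k v, (dO e a).σ k y v = -e.m.ρ none y (e.m.ρ (some k) y (q e y v)) := fun k v =>
    (map_neg _ _).trans (congrArg _ (P.pp_ρ (P.pm_ρ ((prj_q he).idem y v) (some k)) none))
  have e2 : ∀ k v w, ⟪e.m.ρ none y v, e.m.ρ none y (e.m.ρ k y w)⟫_ℝ = ⟪v, e.m.ρ k y w⟫_ℝ :=
    fun k v w => by
      refine (P.ρs none _ _).trans ?_
      change -⟪v, e.m.ρ none y (e.m.ρ none y _)⟫_ℝ = _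
      rw [Dl42.ρρ he, inner_neg_right, neg_neg]
      exact congrArg (fun T : En ν => ⟪v, T w⟫_ℝ) (P.cl.pl k)
  have e3 := P.rel (some i) (some j) (q e y w)
  rw [P.p_of ((prj_q he).idem y w)] at e3
  have s : ∀ k v w, ⟪e.m.ρ k y v, w⟫_ℝ = -⟪v, e.m.ρ k y w⟫_ℝ := P.ρs
  simp only [e1, inner_neg_neg, e2]
  rw [s, s, show e.m.ρ (some i) y (e.m.ρ (some j) y (q e y w)) = -e.m.ρ (some j) y
    (e.m.ρ (some i) y (q e y w)) - (2 * e.D.F.P i j y) • q e y w from e3, inner_sub_right,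
    inner_neg_right, real_inner_smul_right, ← (prj_q he).symm, (prj_q he).idem]
  change _ = 2 * _ * ⟪q e y v, w⟫_ℝ
  ring

theorem sy (h : Ay θ) : Ms1.Sy e.D.F (q e) (dO e θ.a).B (dO e θ.a).σ := fun u w => by
  obtain ⟨C, g⟩ := good he h
  have e1 := fun u => app_eq he (ay_sec h u)
  have p : ∀ (u : Sec e.Y.I (q e)) y, e.m.p y (u.1 y) = u.1 y := fun u y =>
    Dl42.p_of he.cyl (x := (y, 0)) (u.2.2.2 y)
  refine (Dl42.nul_D0 he u.2.1 w.2.1 (p u) (p w)).eq (e.D.F.integrable_inner u.2.1.continuous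
    u.2.2.1 (Ell97.LS g w).2.1.continuous) fun y => ?_
  change ⟪(dO e θ.a).app e.D.F u.1 y, _⟫_ℝ = ⟪_, (dO e θ.a).app e.D.F w.1 y⟫_ℝ + _
  rw [e1, e1, dr_eq he (ay_sec h u), dr_eq he (ay_sec h w)]
  have := fun k => Dl42.qq_comm he k u.1 w.1 y
  simp only [Dl42.qq] at this
  simp only [GP, inner_sub_left, inner_sub_right, sum_inner, inner_sum, real_inner_smul_left,
    real_inner_smul_right, this, real_inner_comm (u.1 y)]
  ring

theorem cy (h : Ay θ) : CyO e.D.F (cO e θ.a) :=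
  Ms1.cyO e.Y.dim.le (good he h).choose_spec (cliff he _) (sy he h)

theorem sop_app (h : Ay θ) (u : Sec e.Y.I (q e)) :
    (sop (cO e θ.a)).app e.D.F u.1 = dr (⟨θ.a, u.1⟩ : e.YC) := by
  obtain ⟨C, g⟩ := good he h
  rw [Ms1.sop_cop (F := e.D.F) (C := C) (p := q e) (B := (dO e θ.a).B) (σ := (dO e θ.a).σ) g,
    ← app_eq he (ay_sec h u), Op.app, Op.app]

theorem spec_eq (h : Ay θ) : spec θ = SpS e.D.F (sop (cO e θ.a)) :=
  ext fun _ => ⟨fun ⟨_, h0, h1, h2⟩ => ⟨sec (Dl42.ay_of h1), fun e => h0 (congrArg Subtype.val e),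
    (sop_app he h _).trans (funext h2)⟩, fun ⟨u, h0, hu⟩ => ⟨u.1, fun e => h0 (Subtype.ext e),
      (ay_sec h u).adm, congrFun ((sop_app he h u).symm.trans hu)⟩⟩

theorem q_ne (y : e.Y.M) : q e y ≠ 0 := fun h => by
  have := (Sw88.p8 he.cyl (y, 0)).tr_pp
  rw [show Taub88.pp _ _ _ = 0 from h] at this
  simp [Taub88.tr] at this

omit he in
/-- **ES-GAP** -/
theorem gapStmt : GapStmt κ lam ν := fun e he θ hθ => by
  have h := Dl42.ay_of hθ
  rw [spec_eq he h]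
  refine ⟨fun r => fin (cy he h) isCompact_Icc, inf (cy he h) (by rw [e.Y.dim]; norm_num)
    (q_ne he (Classical.arbitrary _)) 0, fun β δ φ hφ hδ H => ?_⟩
  have := gap (cy he h) hδ H (sec (Dl42.ay_of hφ))
  rwa [sop_app he h] at this

end Crest.Agent.X212.Gap6
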