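import Crest.Agent.X212.Gap6.Abs
import Crest.Agent.X212.Rad94.Spl
import Crest.Agent.X212.Rad96.Lin
import Crest.Agent.X212.Map77.Sum

/-!
# Row 212 (helper6): generic simplicity of the spectrum of a complex linear operator
-/

set_option autoImplicit false
set_option linter.unusedSectionVars false
noncomputable section
open scoped Topology InnerProductSpace
open Set Function Filter

namespace Crest.Agent.X212.Gap6
open Fred93 (Fr)
open Map77 (P2 f2 s2 i1 i2 sm2 ext2 inner2)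
open Crt72 (Op)
open Rad96

variable {X₁ X₀ Λ : Type} [NormedAddCommGroup X₁] [NormedSpace ℝ X₁] [CompleteSpace X₁]
  [NormedAddCommGroup X₀] [InnerProductSpace ℝ X₀] [CompleteSpace X₀]
  [NormedAddCommGroup Λ] [NormedSpace ℝ Λ] {i T : X₁ →L[ℝ] X₀} {J₁ : X₁ →L[ℝ] X₁}
  {J : X₀ →L[ℝ] X₀} {hm : Λ →L[ℝ] X₀ →L[ℝ] X₀}

/-- a complex linear operator -/
structure Cx (i T : X₁ →L[ℝ] X₀) (J₁ : X₁ →L[ℝ] X₁) (J : X₀ →L[ℝ] X₀) : Prop extends Cr i T where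
  iJ : ∀ u, i (J₁ u) = J (i u)
  TJ : ∀ u, T (J₁ u) = J (T u)
  sk : ∀ x y, ⟪J x, y⟫_ℝ = -⟪x, J y⟫_ℝ
  JJ : ∀ x, J (J x) = -x

theorem Cx.op (h : Cx i T J₁ J) (M : Mass 1 J hm) (w : Λ) : Cx i (Op i T (hm w)) J₁ J :=
  { h with
    sym := fun u v => by
      rw [Crt72.Op_apply, Crt72.Op_apply, inner_add_left, inner_add_right, h.sym, M.sym]
    fr := h.fr.add_compact (h.cpt.clm_comp _)
    TJ := fun u => by rw [Crt72.Op_apply, Crt72.Op_apply, h.TJ, h.iJ, M.hJ, map_add] }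

theorem Cx.dat (h : Cx i T J₁ J) : Dat (sm2 i (1 : ℝ →L[ℝ] ℝ)) (sm2 T 0) (.id ℝ _) (sm2 1 0)
    (sm2 J₁ 0) (sm2 1 0) (sm2 J 0) (i2 X₁ ℝ 1) where
  inj u v e := ext2 (h.inj (by simpa using congrArg (f2 _ _) e)) (by simpa using congrArg (s2 _ _) e)
  jinj := injective_id
  cpt := ((h.cpt.comp_clm (f2 X₁ ℝ)).clm_comp (i1 X₀ ℝ)).add
    ((isCompactOperator_of_locallyCompactSpace_dom (s2 X₁ ℝ)).clm_comp (i2 X₀ ℝ))
  fr := ((((Fr.equiv (WithLp.prodContinuousLinearEquiv 2 ℝ X₀ ℝ).symm).comp Fr.inl).comp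
    (h.fr.comp (Fr.fst.comp (Fr.equiv (WithLp.prodContinuousLinearEquiv 2 ℝ X₁ ℝ))))).cast
      (by simp)).congr fun _ => add_zero _
  sym u v := by simp [-WithLp.prod_inner_apply, inner2, h.sym]
  iP _ := ext2 (by simp) (by simp)
  iJ _ := ext2 (by simp [h.iJ]) (by simp)
  TP _ := ext2 (by simp) (by simp)
  TJ _ := ext2 (by simp [h.TJ]) (by simp)
  Psym x y := by simp [-WithLp.prod_inner_apply, inner2]
  Jskew x y := by simp [-WithLp.prod_inner_apply, inner2, h.sk]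
  PJ _ := ext2 (by simp) (by simp)
  JJ _ := ext2 (by simp [h.JJ]) (by simp)
  Pe := ext2 (by simp) (by simp)
  Te := ext2 (by simp) (by simp)
  ne := by rw [norm_eq_sqrt_real_inner, inner2]; simp
  frm u h1 _ := ⟨s2 _ _ u, ext2 (by simpa using congrArg (f2 _ _) h1) (by simp)⟩

/-- **generic simplicity** -/
theorem Cx.gen (h : Cx i T J₁ J) (M : Mass 1 J hm) : ∀ᶠ w in residual Λ,
    0 ∉ Sp i (Op i T (hm w)) ∧ ∀ l ≥ (0 : ℝ), ∀ u v, u ≠ 0 → Op i T (hm w) u = l • i u →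
      Op i T (hm w) v = l • i v → ∃ α β : ℝ, v = α • u + β • J₁ u := by
  let hm' : Λ →L[ℝ] P2 X₀ ℝ →L[ℝ] P2 X₀ ℝ := (ContinuousLinearMap.postcomp _ (i1 X₀ ℝ)).comp
    ((ContinuousLinearMap.precomp _ (f2 X₀ ℝ)).comp hm)
  have e : ∀ w x, hm' w x = i1 _ _ (hm w (f2 _ _ x)) := fun _ _ => rfl
  have M' : Mass (sm2 1 0) (sm2 J 0) hm' := by
    refine ⟨fun w x y => by simp [-WithLp.prod_inner_apply, e, inner2, M.sym], fun w x => by simp [e],
      fun w x => ext2 (by simp [e, M.hJ]) (by simp [e]), fun x y hx hy h1 h2 => ?_,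
      M.one.imp fun w hw => ContinuousLinearMap.ext fun x => ext2 (by simp [e, hw]) (by simp [e])⟩
    have n : ∀ {x : P2 X₀ ℝ}, sm2 1 0 x = x → ‖f2 _ _ x‖ = ‖x‖ := fun {x} hx => by
      have : s2 _ _ x = 0 := by simpa using (congrArg (s2 _ _) hx).symm
      rw [norm_eq_sqrt_real_inner, norm_eq_sqrt_real_inner x, inner2, this]; simp
    simpa [-WithLp.prod_inner_apply, e, inner2] using M.ns _ _ rfl rfl ((n hx).trans h1) ((n hy).trans h2)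
  have e2 : ∀ w, Op (sm2 i (1 : ℝ →L[ℝ] ℝ)) (sm2 T 0) (hm' w) = sm2 (Op i T (hm w)) 0 := fun w =>
    ContinuousLinearMap.ext fun x => ext2 (by simp [Crt72.Op_apply, e]) (by simp [Crt72.Op_apply, e])
  have m : ∀ {w l u}, Op i T (hm w) u = l • i u → i1 X₁ ℝ u ∈
      Eig (sm2 i (1 : ℝ →L[ℝ] ℝ)) (sm2 (Op i T (hm w)) 0) (sm2 1 0) l := fun hu =>
    mem_Eig.2 ⟨ext2 (by simp) (by simp), ext2 (by simp [hu]) (by simp)⟩
  have n0 : ∀ {u}, u ≠ 0 → i1 X₁ ℝ u ≠ 0 := fun h0 e => h0 (congrArg (f2 _ _) e)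
  filter_upwards [eventually_countable_forall.2 fun n : ℕ =>
    have := Rad94.spl_gen h.dat M' (isCompact_Icc (a := (0 : ℝ)) (b := (n : ℝ))) 0
    residual_of_dense_open this.1 this.2] with w hw
  simp only [e2] at hw
  refine ⟨fun ⟨u, h0, hu⟩ => (hw 0).2 ((Submodule.ne_bot_iff _).2 ⟨_, m hu, n0 h0⟩),
    fun l hl u v h0 hu hv => ?_⟩
  obtain ⟨α, β, h1⟩ := (h.op M w).dat.span ((hw ⌈l⌉₊).1 l ⟨hl, Nat.le_ceil l⟩) (m hu) (n0 h0) (m hv)
  exact ⟨α, β, by simpa using congrArg (f2 _ _) h1⟩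

end Crest.Agent.X212.Gap6
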