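import Crest.Agent.X212.Gap6.Main
import Crest.Agent.X212.Gap6.Spl

/-!
# Row 212, ES-SIMP (helper6): the spectrum is generically simple
-/

set_option autoImplicit false
set_option linter.unusedSectionVars false
noncomputable section
open scoped Manifold ContDiff Topology InnerProductSpace
open MeasureTheory Set Function Filter

namespace Crest.Agent.X212.Gap6
open An An.Pre Sob92 Cyf70 Sw Sw.En3 End23
open Dl42 (τ hZ GP D0 Ay)
open Wz78 (SA)
open InnerProductSpace (rankOne)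

variable {κ lam ν : Type} [Fintype κ] [Fintype lam] [Fintype ν] [DecidableEq ν]
  {e : En3 κ lam ν} {θ : e.YC} {h : e.Y.M → En ν}

variable (e) in
/-- multiplication operators -/
abbrev mH (k : ℕ) (h : e.Y.M → En ν) : e.D.F.H k (q e) →L[ℝ] e.D.F.H k (q e) :=
  e.D.F.mulH k _ _ h

/-- the function of a class -/
abbrev fn (x : e.D.F.H 0 (q e)) : e.Y.M → Eu ν := e.D.F.toL2 0 _ x

theorem inner_mH (hs : Sm e.Y.I h) (hm : Maps (q e) (q e) h) (x y : e.D.F.H 0 (q e)) :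
    ⟪mH e 0 h x, y⟫_ℝ = ∫ z, ⟪h z (fn x z), fn y z⟫_ℝ ∂e.D.F.μ := by
  rw [← inner_toL2, L2.inner_def]
  exact integral_congr_ae ((toL2_mulH (Cb_of_compact hs) hm x).mono fun z hz => congrArg (⟪·, _⟫_ℝ) hz)

theorem ae0 (hs : Sm e.Y.I h) (hm : Maps (q e) (q e) h) {x y : e.D.F.H 0 (q e)}
    (H : ∀ χ : e.Y.M → ℝ, Sm e.Y.I χ → ⟪mH e 0 (fun z => χ z • h z) x, y⟫_ℝ = 0) :
    ∀ᵐ z ∂e.D.F.μ, ⟪h z (fn x z), fn y z⟫_ℝ = 0 := by
  refine ae_eq_zero_of_integral_contMDiff_smul_eq_zero e.Y.I (Integrable.locallyIntegrable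
    ((L2.integrable_inner (𝕜 := ℝ) (e.D.F.toL2 0 _ (mH e 0 h x)) (e.D.F.toL2 0 _ y)).congr
      ((toL2_mulH (Cb_of_compact hs) hm x).mono fun z hz => congrArg (⟪·, _⟫_ℝ) hz))) fun χ hχ _ => ?_
  have := H χ hχ
  rw [inner_mH (h := fun z => χ z • h z) (hχ.smul hs) fun z v hv => by rw [smul_apply, map_smul, hm z v hv]] at this
  simpa only [smul_apply, real_inner_smul_left, smul_eq_mul] using this

variable (he : e.OK)
include he

theorem q_h (H : Herm e h) (y : e.Y.M) (v : Eu ν) : q e y (h y v) = h y v := by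
  rw [← H.p y]; exact (prj_q he).idem y _

theorem maps_h (H : Herm e h) : Maps (q e) (q e) h := .of_left (q_h he H)

theorem maps_J : Maps (q e) (q e) fun _ => e.m.J := fun y _ => (Op40.pc he.cyl (y, 0)).pp_J

theorem JJ (v : Eu ν) : e.m.J (e.m.J v) = -v := congrArg (fun T : En ν => T v) he.cyl.m.Jsq

theorem herm {T : En ν} (hT : Sym T) (hJ : e.m.J * T = T * e.m.J) {χ : e.Y.M → ℝ}
    (hχ : Sm e.Y.I χ) : Herm e fun z => χ z • (q e z * T * q e z) := by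
  have a : ∀ y, e.m.J * q e y = q e y * e.m.J := fun y => Pb50.Jpp he.cyl (y, 0)
  have b : ∀ y, q e y * q e y = q e y := fun y => (Op40.pc he.cyl (y, 0)).pp_pp
  refine ⟨fun y => SA.smul (hχ y) (SA.mul (SA.mul (sm_q he y) contMDiffAt_const) (sm_q he y)),
    fun y v w => ?_, fun y => ?_, fun y => ?_⟩
  · simp only [smul_apply, mul_apply_eq_comp, real_inner_smul_left, real_inner_smul_right]
    rw [(prj_q he).symm, hT, (prj_q he).symm]
  · rw [mul_smul_comm, smul_mul_assoc, ← mul_assoc, ← mul_assoc, a, mul_assoc _ _ T, hJ,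
      mul_assoc, mul_assoc, a, mul_assoc, mul_assoc]
  · rw [mul_smul_comm, smul_mul_assoc, ← mul_assoc, ← mul_assoc, b, mul_assoc _ _ (q e y), b]

theorem sep {x y : e.D.F.H 0 (q e)} (H : ∀ h, Herm e h → ⟪mH e 0 h x, y⟫_ℝ = 0 ∧
    ⟪mH e 0 h x, mH e 0 (fun _ => e.m.J) y⟫_ℝ = 0 ∧ ⟪mH e 0 h (x - y), x + y⟫_ℝ = 0) : x = 0 := by
  have sk : ∀ v w, ⟪e.m.J v, w⟫_ℝ = -⟪v, e.m.J w⟫_ℝ := Dl42.J_skw he
  have k : ∀ {T : En ν}, Sym T → e.m.J * T = T * e.m.J → ∀ {x y : e.D.F.H 0 (q e)},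
      (∀ h, Herm e h → ⟪mH e 0 h x, y⟫_ℝ = 0) → ∀ᵐ z ∂e.D.F.μ, ⟪T (fn x z), fn y z⟫_ℝ = 0 :=
    fun {T} h1 h2 x y H => by
      have h3 := herm he h1 h2 (contMDiff_const (c := 1))
      simp only [one_smul] at h3
      filter_upwards [ae0 h3.sm (maps_h he h3) fun χ hχ => H _ (herm he h1 h2 hχ), toL2_proj x,
        toL2_proj y] with z a b c
      rwa [mul_apply_eq_comp, mul_apply_eq_comp, b, (prj_q he).symm, c] at a
  let T : Eu ν → Eu ν → En ν := fun a b => rankOne ℝ a b + rankOne ℝ b a +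
    rankOne ℝ (e.m.J a) (e.m.J b) + rankOne ℝ (e.m.J b) (e.m.J a)
  have t1 : ∀ a b, Sym (T a b) := fun a b v w => by
    simp only [T, add_apply, InnerProductSpace.rankOne_apply, inner_add_left, inner_add_right,
      real_inner_smul_left, real_inner_smul_right, real_inner_comm v]
    ring
  have t2 : ∀ a b, e.m.J * T a b = T a b * e.m.J := fun a b => ContinuousLinearMap.ext fun v => by
    simp only [T, mul_apply_eq_comp, add_apply, InnerProductSpace.rankOne_apply, map_add, map_smul,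
      sk a, sk b, JJ he, inner_neg_right]
    module
  let b : ν → Eu ν := fun i => EuclideanSpace.single i 1
  have a1 := ae_all_iff.2 fun i => ae_all_iff.2 fun j =>
    k (t1 (b i) (b j)) (t2 _ _) fun h hh => (H h hh).1
  have a2 := ae_all_iff.2 fun i => ae_all_iff.2 fun j =>
    k (t1 (b i) (e.m.J (b j))) (t2 _ _) fun h hh => (H h hh).2.1
  have a3 := k (T := 1) (fun _ _ => rfl) (by simp) fun h hh => (H h hh).2.2
  rw [← norm_eq_zero, ← norm_toL2_zero, norm_eq_zero, Lp.eq_zero_iff_ae_eq_zero]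
  simp only [fn, map_sub, map_add] at a3
  filter_upwards [a1, a2, a3, toL2_mulH (Cb_const e.m.J) (maps_J he) y,
    Lp.coeFn_sub (e.D.F.toL2 0 _ x) (e.D.F.toL2 0 _ y),
    Lp.coeFn_add (e.D.F.toL2 0 _ x) (e.D.F.toL2 0 _ y)] with z c1 c2 c3 c4 c5 c6
  simp only [fn, c4] at c1 c2
  rw [c5, c6, Pi.sub_apply, Pi.add_apply, one_apply_eq_self] at c3
  change _ = 0
  generalize e.D.F.toL2 0 _ x z = X at *
  generalize e.D.F.toL2 0 _ y z = Y at *
  have d1 : ∀ j, Y j • X + e.m.J Y j • e.m.J X = 0 := fun j => PiLp.ext fun i => by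
    have e1 := c1 i j
    have e2 := c2 i j
    simp only [T, add_apply, InnerProductSpace.rankOne_apply, inner_add_left, real_inner_smul_left,
      sk, JJ he, inner_neg_right, inner_neg_left, map_neg, neg_apply, b, EuclideanSpace.inner_single_left,
      map_one, one_mul] at e1 e2
    simp only [PiLp.add_apply, PiLp.smul_apply, smul_eq_mul, PiLp.zero_apply]
    linarith
  by_contra h0
  have d2 : Y = 0 := PiLp.ext fun j => by
    have := congrArg (⟪·, X⟫_ℝ) (d1 j)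
    simp only [inner_add_left, real_inner_smul_left, Wz78.Skew.self sk X, mul_zero, add_zero,
      inner_zero_left, mul_eq_zero, inner_self_eq_zero, h0, or_false] at this
    exact this
  rw [d2, sub_zero, add_zero, inner_self_eq_zero] at c3
  exact h0 c3

theorem dr_J (H : Ay θ) (y : e.Y.M) :
    GP (⟨θ.a, fun y => e.m.J (θ.Φ y)⟩ : e.YC) y = e.m.J (GP θ y) := by
  have a : ∀ k v, e.m.J (e.A k y v) = e.A k y (e.m.J v) := fun k v =>
    congrArg (fun T : En ν => T v) (he.cyl.AJ (some k) (y, 0))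
  simp only [GP, D0, Wz78.dop, Wz78.nab, dv_clm e.m.J (Ell97.md H.sΦ y), map_sub, map_neg, map_add,
    map_sum, map_smul, Dl42.Jτ he, Dl42.JZ he, a]

theorem L_toH (H : Ay θ) (u v : Sec e.Y.I (q e)) (hv : ∀ y, v.1 y = dr (⟨θ.a, u.1⟩ : e.YC) y) :
    LH e.D.F (cO e θ.a) 0 (e.D.F.toH 1 _ u) = e.D.F.toH 0 _ v := by
  rw [LH, Ell97.H_toH (cy he H).good_sop.choose_spec]
  exact congrArg _ (Subtype.ext ((sop_app he H u).trans (funext hv).symm))

theorem ex_dr (H : Ay θ) (u : Sec e.Y.I (q e)) :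
    ∃ v : Sec e.Y.I (q e), ∀ y, v.1 y = dr (⟨θ.a, u.1⟩ : e.YC) y :=
  let ⟨_, g⟩ := good he H
  ⟨⟨_, by rw [← app_eq he (ay_sec H u)]; exact sm_op (fun a => (g.σ a).1) g.B.1 u.2.1,
    .of_compactSpace _, q_dr he (ay_sec H u)⟩, fun _ => rfl⟩

theorem L_J (H : Ay θ) (x : e.D.F.H 1 (q e)) : LH e.D.F (cO e θ.a) 0 (mH e 1 (fun _ => e.m.J) x) =
    mH e 0 (fun _ => e.m.J) (LH e.D.F (cO e θ.a) 0 x) := by
  have c : e.D.F.Cb fun _ => e.m.J := Cb_const _
  have m := maps_J he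
  refine H_ind (P := fun x => LH e.D.F (cO e θ.a) 0 (mH e 1 (fun _ => e.m.J) x) =
    mH e 0 (fun _ => e.m.J) (LH e.D.F (cO e θ.a) 0 x)) x
    (isClosed_eq ((map_continuous _).comp (map_continuous _))
      ((map_continuous _).comp (map_continuous _))) fun u => ?_
  obtain ⟨v, hv⟩ := ex_dr he H u
  rw [L_toH he H u v hv, RepT_toH (rep_mulH c m), RepT_toH (rep_mulH c m)]
  refine L_toH he H _ _ fun y => ?_
  rw [dr_eq he (ay_sec H _)]
  exact (congrArg e.m.J ((hv y).trans (dr_eq he (ay_sec H u) y))).trans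
    (dr_J he (ay_sec H u) y).symm

theorem J_sk (x y : e.D.F.H 0 (q e)) :
    ⟪mH e 0 (fun _ => e.m.J) x, y⟫_ℝ = -⟪x, mH e 0 (fun _ => e.m.J) y⟫_ℝ := by
  rw [real_inner_comm _ x, inner_mH contMDiff_const (maps_J he),
    inner_mH contMDiff_const (maps_J he), ← integral_neg]
  exact integral_congr_ae (.of_forall fun z =>
    (Dl42.J_skw he _ _).trans (congrArg _ (real_inner_comm _ _)))

theorem J_J (x : e.D.F.H 0 (q e)) : mH e 0 (fun _ => e.m.J) (mH e 0 (fun _ => e.m.J) x) = -x := by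
  have c : e.D.F.Cb fun _ => e.m.J := Cb_const _
  rw [mulH_mulH c (maps_J he) c (maps_J he),
    mulH_congr (g := (-1 : ℝ) • fun _ => 1) fun y v _ => by simp [JJ he],
    mulH_smul _ (Cb_const _) fun _ _ h => h, smul_apply, mulH_id fun _ _ _ => rfl, neg_one_smul]

theorem cx (H : Ay θ) : Cx (e.D.F.incl 1 0 (q e)) (LH e.D.F (cO e θ.a) 0) (mH e 1 fun _ => e.m.J)
    (mH e 0 fun _ => e.m.J) where
  toCr := (cr (cy he H) :)
  iJ := incl_mulH (Cb_const _) (maps_J he) zero_le_one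
  TJ := L_J he H
  sk := J_sk he
  JJ := J_J he

/-- the masses as operators -/
def hL (Λ : Flr e) : Λ.Λ →L[ℝ] e.D.F.H 0 (q e) →L[ℝ] e.D.F.H 0 (q e) :=
  LinearMap.mkContinuousOfExistsBound
    { toFun := fun w => mH e 0 (Λ.hm w)
      map_add' := fun v w => by
        rw [map_add]
        exact mulH_add (Cb_of_compact (Λ.herm v).sm) (maps_h he (Λ.herm v))
          (Cb_of_compact (Λ.herm w).sm) (maps_h he (Λ.herm w))
      map_smul' := fun r w => by
        rw [map_smul]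
        exact mulH_smul r (Cb_of_compact (Λ.herm w).sm) (maps_h he (Λ.herm w)) }
    (let ⟨C, hC⟩ := Λ.cb 0
    ⟨cK κ 0 * |C|, fun w => (norm_mulH_le (Λ.herm w).sm (hC w) (maps_h he (Λ.herm w))).trans_eq
      (by rw [abs_mul, abs_norm, mul_assoc])⟩)

theorem sym_mH (H : Herm e h) (x y : e.D.F.H 0 (q e)) : ⟪mH e 0 h x, y⟫_ℝ = ⟪x, mH e 0 h y⟫_ℝ := by
  rw [real_inner_comm _ x, inner_mH H.sm (maps_h he H), inner_mH H.sm (maps_h he H)]
  exact integral_congr_ae (.of_forall fun z => (H.sy _ _ _).trans (real_inner_comm _ _))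

theorem mass (Λ : Flr e) : Rad96.Mass 1 (mH e 0 fun _ => e.m.J) (hL he Λ) := by
  refine ⟨fun w => sym_mH he (Λ.herm w), fun _ _ => rfl, fun w x => ?_, fun x y _ _ h1 _ => ?_,
    Λ.one.imp fun w hw => ContinuousLinearMap.ext (mulH_id fun y v hv => by rw [hw]; exact hv)⟩
  · have H := Λ.herm w
    change mH e 0 _ _ = mH e 0 _ (mH e 0 _ _)
    rw [mulH_mulH (Cb_const _) (maps_J he) (Cb_of_compact H.sm) (maps_h he H),
      mulH_mulH (Cb_of_compact H.sm) (maps_h he H) (Cb_const _) (maps_J he)]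
    exact congrArg (fun f => mH e 0 f x) (funext fun y => (H.J y).symm)
  by_contra! H
  have : x = 0 := sep he (y := y) fun h hh => by
    have cl : mH e 0 h ∈ closure (range (hL he Λ)) := Metric.mem_closure_iff.2 fun ε hε => by
      have c := cK_nonneg (ι := κ) 0
      obtain ⟨w, hw⟩ := Λ.den h hh (ε / (cK κ 0 + 1)) (by positivity)
      have s : Sm e.Y.I (Λ.hm w - h) := (Λ.herm w).sm.sub hh.sm
      have m : Maps (q e) (q e) (Λ.hm w - h) := fun y v _ => by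
        simp only [Pi.sub_apply, sub_apply, map_sub, q_h he hh, q_h he (Λ.herm w)]
      have a := mulH_add (k := 0) (Cb_of_compact (F := e.D.F.toPre) s) m (Cb_of_compact hh.sm)
        (maps_h he hh)
      rw [sub_add_cancel] at a
      refine ⟨_, ⟨w, rfl⟩, ?_⟩
      rw [dist_comm, dist_eq_norm, show hL he Λ w = _ from a, add_sub_cancel_right]
      refine (norm_mulH_le s (C := ε / (cK κ 0 + 1)) (fun l hl y => ?_) m).trans_lt ?_
      · rw [List.length_eq_zero_iff.1 (Nat.le_zero.1 hl)]; exact hw y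
      · rw [abs_of_pos (by positivity), ← mul_div_assoc, div_lt_iff₀ (by positivity)]; linarith
    have := closure_minimal (t := {A : e.D.F.H 0 (q e) →L[ℝ] e.D.F.H 0 (q e) | ⟪A x, y⟫_ℝ = 0 ∧
      ⟪A x, mH e 0 (fun _ => e.m.J) y⟫_ℝ = 0 ∧ ⟪A x, x⟫_ℝ = ⟪A y, y⟫_ℝ}) (range_subset_iff.2 H)
      ((isClosed_eq (by fun_prop) (by fun_prop)).inter ((isClosed_eq (by fun_prop)
        (by fun_prop)).inter (isClosed_eq (by fun_prop) (by fun_prop)))) cl
    refine ⟨this.1, this.2.1, ?_⟩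
    rw [map_sub, inner_sub_left, inner_add_right, inner_add_right, this.2.2, this.1,
      sym_mH he hh y x, real_inner_comm _ y, this.1]
    ring
  simp [this] at h1

theorem dr_wh (H : Herm e h) (f : ℝ → ℝ) (a : κ → e.Y.M → ℝ) (φ : e.Y.M → Eu ν) (y : e.Y.M) :
    dr (⟨a, φ⟩ : (wh e f (e.h + h)).YC) y = dr (⟨a, φ⟩ : e.YC) y + h y (φ y) := by
  have := Dl42.p_of he.cyl (x := (y, 0)) (q_h he H y (φ y))
  change -e.m.ρ none y (_ + e.m.ρ none y (e.h y (φ y) + h y (φ y))) =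
    -e.m.ρ none y (_ + e.m.ρ none y (e.h y (φ y))) + _
  rw [map_add _ (e.h y _), ← add_assoc, map_add _ _ (e.m.ρ none y (h y _)), Dl42.ρρ he, neg_add,
    neg_neg]
  exact congrArg₂ _ rfl this

theorem simp_gen (Λ : Flr e) (H : Ay θ) (f : ℝ → ℝ) : ∀ᶠ x in residual Λ.Λ,
    0 ∉ spec (⟨θ.a, 0⟩ : (wh e f (e.h + Λ.hm x)).YC) ∧
    ∀ l ≥ 0, Smp (⟨θ.a, 0⟩ : (wh e f (e.h + Λ.hm x)).YC) l := by
  filter_upwards [(cx he H).gen (mass he Λ)] with w hw
  have k : ∀ {l φ}, Eg (⟨θ.a, 0⟩ : (wh e f (e.h + Λ.hm w)).YC) l φ → ∃ u : Sec e.Y.I (q e), u.1 = φ ∧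
      Crt72.Op (e.D.F.incl 1 0 (q e)) (LH e.D.F (cO e θ.a) 0) (hL he Λ w) (e.D.F.toH 1 _ u) =
        l • e.D.F.incl 1 0 (q e) (e.D.F.toH 1 _ u) := fun {l φ} h => by
    have a := Dl42.ay_of h.1
    let u : Sec e.Y.I (q e) := ⟨φ, a.sΦ, .of_compactSpace _, a.pΦ⟩
    have r := rep_mulH (k := 0) (Cb_of_compact (F := e.D.F.toPre) (Λ.herm w).sm)
      (maps_h he (Λ.herm w))
    refine ⟨u, rfl, ?_⟩
    rw [Crt72.Op_apply, incl_toH zero_le_one, show hL he Λ w _ = _ from RepT_toH r u,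
      ← eq_sub_iff_add_eq, ← map_smul, ← map_sub]
    exact L_toH he H _ _ fun y =>
      sub_eq_of_eq_add ((h.2 y).symm.trans (dr_wh he (Λ.herm w) f _ _ y))
  have n : ∀ {u : Sec e.Y.I (q e)}, u.1 ≠ 0 → e.D.F.toH 1 _ u ≠ 0 := fun h0 e0 =>
    h0 (congrArg Subtype.val (Ell97.toH_inj _ 1 _ (e0.trans (map_zero _).symm)))
  refine ⟨fun ⟨φ, h0, h⟩ => ?_, fun l hl φ φ' h0 h h' => ?_⟩
  · obtain ⟨u, rfl, hu⟩ := k h
    exact hw.1 ⟨_, n h0, hu⟩
  · obtain ⟨u, rfl, hu⟩ := k h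
    obtain ⟨v, rfl, hv⟩ := k h'
    obtain ⟨α, β, h1⟩ := hw.2 l hl _ _ (n h0) hu hv
    rw [RepT_toH (rep_mulH (Cb_const _) (maps_J he)), ← map_smul, ← map_smul, ← map_add] at h1
    exact ⟨⟨α, β⟩, congrFun (congrArg Subtype.val (Ell97.toH_inj _ 1 _ h1))⟩

omit he in
/-- **ES-SIMP** -/
theorem simpStmt : SimpStmt κ lam ν := fun e he Λ _ hθ _ =>
  simp_gen he (@Flr.mk _ _ _ _ _ _ (lf e) Λ.Λ Λ.n Λ.s Λ.c Λ.sc Λ.hm
    (fun x => ⟨(Λ.herm x).1, (Λ.herm x).2, (Λ.herm x).3, (Λ.herm x).4⟩) Λ.cb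
    (fun h H => Λ.den h ⟨H.1, H.2, H.3, H.4⟩) Λ.one) (Dl42.ay_of hθ.1.1) e.f

end Crest.Agent.X212.Gap6
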